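import Vale.Agent.P181.PL.Basic
import Vale.Agent.P181.PL81.Heavy1
import Vale.Agent.P181.SZA.Third
import Vale.Agent.P181.H503.TypeAll
import Vale.Agent.P181.H503.CaseR

set_option autoImplicit false

/-!
# P181, PL: block P9
-/

namespace Vale.Agent.P181.PL9

open Vale.Agent.P181.T4 (HW ex low)
open Vale.Agent.P181.T7 (cells below below_cells)
open Vale.Agent.P181.H280 (plethMult)
open Vale.Agent.P181.PL
open Vale.Agent.P181.PL81 (pad_rows dn_cells)

/-- consequences of the size of `X` -/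
lemma big_X {a X : ℕ} (ha : 1 ≤ a) (hX : 10 ^ 12 * (1 + Real.log a) ^ 7 ≤ (X : ℝ)) :
    10 ^ 12 ≤ X ∧ 10 ^ 12 * (1 + Real.log a) ≤ (X : ℝ) ∧ 0 ≤ Real.log a := by
  have ha1 : (1 : ℝ) ≤ a := by exact_mod_cast ha
  have hlog0 : 0 ≤ Real.log a := Real.log_nonneg ha1
  have h1 : 1 + Real.log a ≤ (1 + Real.log a) ^ 7 := by
    calc 1 + Real.log a = (1 + Real.log a) ^ 1 := (pow_one _).symm
      _ ≤ (1 + Real.log a) ^ 7 := pow_le_pow_right₀ (by linarith) (by norm_num)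
  have h2 : 10 ^ 12 * (1 + Real.log a) ≤ (X : ℝ) := by linarith
  refine ⟨?_, h2, hlog0⟩
  have h3 : (10 : ℝ) ^ 12 ≤ X := by linarith
  exact_mod_cast h3

/-- `log (w + 1) ≤ 3 (1 + log a)` for `w ≤ a ^ 3`. -/
lemma log_w {a w : ℕ} (ha : 1 ≤ a) (hw : w ≤ a ^ 3) : Real.log ((w : ℝ) + 1) ≤ 3 * (1 + Real.log a) := by
  have ha1 : (1 : ℝ) ≤ a := by exact_mod_cast ha
  have ha0 : (0 : ℝ) < a := by linarith
  have h1 : (w : ℝ) + 1 ≤ Real.exp 1 * (a : ℝ) ^ 3 := by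
    have h2 : (w : ℝ) ≤ (a : ℝ) ^ 3 := by exact_mod_cast hw
    have h3 : (1 : ℝ) ≤ (a : ℝ) ^ 3 := one_le_pow₀ ha1
    have h4 : (2 : ℝ) ≤ Real.exp 1 := by
      have := Real.add_one_le_exp (1 : ℝ)
      linarith
    nlinarith
  have h5 : Real.log ((w : ℝ) + 1) ≤ 1 + 3 * Real.log a := by
    refine (Real.log_le_log (by positivity) h1).trans (le_of_eq ?_)
    rw [Real.log_mul (Real.exp_pos 1).ne' (by positivity), Real.log_exp, Real.log_pow]
    norm_num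
  linarith

/-- few cells below row one -/
lemma light_A {a b n X R : ℕ} {lam : Fin n → ℕ} (hlam : Antitone lam) (hsum : ∑ i, lam i = a * b)
    (hpos : (∀ i, 0 < lam i) ∨ n ≤ X ^ 57) (hR3 : 3 ≤ R) (hRn : R < n) (hRX : R ≤ X ^ 14)
    (ha : 1 ≤ a) (hXa : X ^ 20000 ≤ a) (hX : 10 ^ 12 * (1 + Real.log a) ^ 7 ≤ (X : ℝ))
    (hb2 : b ≤ a ^ 2) (hb : a * X ^ 6000 ≤ b) (hl2 : a * X ^ 5985 ≤ ex lam 2)
    (hD : X ^ 2550 * dn lam R ≤ ex lam 2) (hw : dn lam 1 * X ^ 228 < a ^ 2) :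
    plethMult a b n lam ≤ plethMult b a n lam := by
  obtain ⟨hX12, hXL, hlog0⟩ := big_X ha hX
  have hX1 : 1 ≤ X := by omega
  have hpw : ∀ {i j : ℕ}, i ≤ j → X ^ i ≤ X ^ j := fun h => Nat.pow_le_pow_right hX1 h
  have hXX : ∀ i : ℕ, 10 ^ 12 * X ^ i ≤ X ^ (i + 1) := by
    intro i
    rw [pow_succ, mul_comm]
    exact Nat.mul_le_mul_left _ hX12
  obtain ⟨w, hwdef⟩ : ∃ w, w = dn lam 1 := ⟨_, rfl⟩
  rw [← hwdef] at hw
  have hw2 : ex lam 2 ≤ w := by
    rw [hwdef]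
    exact (ex_le_dn lam 2).trans (dn_anti lam (by norm_num))
  have hwab : w ≤ a ^ 3 := by
    calc w ≤ dn lam 0 := by rw [hwdef]; exact dn_anti lam (by norm_num)
      _ = a * b := by rw [dn_zero, hsum]
      _ ≤ a * a ^ 2 := Nat.mul_le_mul_left _ hb2
      _ = a ^ 3 := by ring
  obtain ⟨Z, hZdef⟩ : ∃ Z, Z = Nat.sqrt w := ⟨_, rfl⟩
  have hZ1 : Z ^ 2 ≤ w := by rw [hZdef]; exact Nat.sqrt_le' w
  have hZ2 : w < (Z + 1) ^ 2 := by rw [hZdef]; exact Nat.lt_succ_sqrt' w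
  have haX : X ^ 2280 ≤ w := by
    calc X ^ 2280 ≤ X ^ 20000 := hpw (by norm_num)
      _ ≤ a := hXa
      _ ≤ a * X ^ 5985 := Nat.le_mul_of_pos_right _ (pow_pos hX1 _)
      _ ≤ w := hl2.trans hw2
  have hZX : X ^ 1140 ≤ Z := by
    by_contra hcon
    have h1 : Z + 1 ≤ X ^ 1140 := by omega
    have h2 : (Z + 1) ^ 2 ≤ X ^ 2280 := by
      calc (Z + 1) ^ 2 ≤ (X ^ 1140) ^ 2 := Nat.pow_le_pow_left h1 2
        _ = X ^ 2280 := by rw [← pow_mul]
    omega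
  have hZa : Z * X ^ 114 < a := by
    have h1 : (Z * X ^ 114) ^ 2 < a ^ 2 := by
      calc (Z * X ^ 114) ^ 2 = Z ^ 2 * X ^ 228 := by rw [mul_pow, ← pow_mul]
        _ ≤ w * X ^ 228 := Nat.mul_le_mul_right _ hZ1
        _ < a ^ 2 := hw
    exact lt_of_pow_lt_pow_left₀ 2 (Nat.zero_le _) h1
  have hZa' : Z ≤ a := (Nat.le_mul_of_pos_right Z (pow_pos hX1 114)).trans hZa.le
  have hZ0 : 1 ≤ Z := le_trans (Nat.one_le_pow _ _ hX1) hZX
  -- the number of steps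
  obtain ⟨K, hKdef⟩ : ∃ K : ℕ, K = ⌈4 * (1 + Real.log a)⌉₊ := ⟨_, rfl⟩
  have hK1 : 4 * (1 + Real.log a) ≤ K := by rw [hKdef]; exact Nat.le_ceil _
  have hK2 : (K : ℝ) ≤ 4 * (1 + Real.log a) + 1 := by
    rw [hKdef]
    exact (Nat.ceil_lt_add_one (by positivity)).le
  have hK3 : 1 ≤ K := by
    have : (1 : ℝ) ≤ K := by linarith
    exact_mod_cast this
  have hK4 : 10 ^ 6 * K ≤ X := by
    have h1 : (10 : ℝ) ^ 6 * K ≤ X := by
      have h2 : (10 : ℝ) ^ 6 * K ≤ 10 ^ 6 * (5 * (1 + Real.log a)) := by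
        apply mul_le_mul_of_nonneg_left _ (by norm_num)
        linarith
      linarith
    exact_mod_cast h1
  have hX57 : X ≤ X ^ 57 := Nat.le_self_pow (by norm_num) X
  have h4w : 4 * w ≤ (X ^ 57) ^ K := by
    have ha1 : (1 : ℝ) ≤ a := by exact_mod_cast ha
    have ha0 : (0 : ℝ) < a := by linarith
    have h1 : Real.exp 1 ≤ ((X ^ 57 : ℕ) : ℝ) := by
      have h2 : (3 : ℝ) ≤ ((X ^ 57 : ℕ) : ℝ) := by
        have : 3 ≤ X ^ 57 := by omega
        exact_mod_cast this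
      have := Real.exp_one_lt_d9
      linarith
    have h3 : (4 : ℝ) * w ≤ ((X ^ 57 : ℕ) : ℝ) ^ K := by
      calc (4 : ℝ) * w ≤ 4 * (a : ℝ) ^ 3 := by
            have : (w : ℝ) ≤ (a : ℝ) ^ 3 := by exact_mod_cast hwab
            linarith
        _ ≤ Real.exp 4 * (a : ℝ) ^ 4 := by
            have e1 : (4 : ℝ) ≤ Real.exp 4 := by
              have := Real.add_one_le_exp (4 : ℝ)
              linarith
            have e2 : (a : ℝ) ^ 3 ≤ (a : ℝ) ^ 4 := pow_le_pow_right₀ ha1 (by norm_num)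
            exact mul_le_mul e1 e2 (by positivity) (by positivity)
        _ = Real.exp (4 * (1 + Real.log a)) := by
            rw [mul_add, mul_one, Real.exp_add]
            congr 1
            rw [show (4 : ℝ) * Real.log a = ((4 : ℕ) : ℝ) * Real.log a by norm_num,
              Real.exp_nat_mul, Real.exp_log ha0]
        _ ≤ Real.exp (K * 1) := Real.exp_le_exp.2 (by rw [mul_one]; exact hK1)
        _ = Real.exp 1 ^ K := Real.exp_nat_mul 1 K
        _ ≤ ((X ^ 57 : ℕ) : ℝ) ^ K := pow_le_pow_left₀ (Real.exp_pos 1).le h1 K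
    exact_mod_cast h3
  -- the tail
  have hRp : R + 1 ≤ X ^ 15 := by
    have h1 : 10 ^ 12 * X ^ 14 ≤ X ^ 15 := hXX 14
    have h2 : 1 ≤ X ^ 14 := Nat.one_le_pow _ _ hX1
    omega
  refine SZA.H376.finB a b n R (X ^ 57) Z K w lam hlam hsum hpos hR3 hRn hwdef hZ1 hZ2 hK3 ?_ ?_ ?_
    ?_ ?_ ?_ ?_ ?_ h4w ?_ ?_ ?_
  · -- 16 K + 16 ≤ X1
    omega
  · -- 10^6 R^4 ≤ X1
    calc 10 ^ 6 * R ^ 4 ≤ 10 ^ 12 * (X ^ 14) ^ 4 :=
          Nat.mul_le_mul (by norm_num) (Nat.pow_le_pow_left hRX 4)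
      _ = 10 ^ 12 * X ^ 56 := by rw [← pow_mul]
      _ ≤ X ^ 57 := hXX 56
  · -- X1^20 ≤ Z
    rw [← pow_mul]
    exact hZX
  · -- Z X1^14 ≤ ex lam 2
    rw [← pow_mul]
    calc Z * X ^ (57 * 14) ≤ a * X ^ 5985 := Nat.mul_le_mul hZa' (hpw (by norm_num))
      _ ≤ _ := hl2
  · -- X1 a ≤ ex lam 2
    calc X ^ 57 * a ≤ X ^ 5985 * a := Nat.mul_le_mul_right _ (hpw (by norm_num))
      _ = a * X ^ 5985 := mul_comm _ _
      _ ≤ _ := hl2
  · -- 8 ex lam R ≤ ex lam 2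
    calc 8 * ex lam R ≤ X ^ 2550 * dn lam R := by
          apply Nat.mul_le_mul _ (ex_le_dn lam R)
          have : X ≤ X ^ 2550 := Nat.le_self_pow (by norm_num) X
          omega
      _ ≤ _ := hD
  · -- the tail
    rw [sum_low, ← pow_mul]
    calc X ^ (57 * 6) * (R * ex lam R + dn lam R) ≤ X ^ (57 * 6) * (X ^ 15 * dn lam R) := by
          apply Nat.mul_le_mul_left
          calc R * ex lam R + dn lam R ≤ R * dn lam R + dn lam R :=
                Nat.add_le_add_right (Nat.mul_le_mul_left _ (ex_le_dn lam R)) _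
            _ = (R + 1) * dn lam R := by ring
            _ ≤ X ^ 15 * dn lam R := Nat.mul_le_mul_right _ hRp
      _ = X ^ 357 * dn lam R := by
          rw [← mul_assoc, ← pow_add]
      _ ≤ X ^ 2550 * dn lam R := Nat.mul_le_mul_right _ (hpw (by norm_num))
      _ ≤ w := hD.trans hw2
  · -- logarithm
    have h1 := log_w ha hwab
    have hR' : (R : ℝ) ≤ (X : ℝ) ^ 14 := by exact_mod_cast hRX
    have hXr : (0 : ℝ) ≤ X := Nat.cast_nonneg X
    have hlw : 0 ≤ Real.log ((w : ℝ) + 1) := Real.log_nonneg (by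
      have : (0 : ℝ) ≤ w := Nat.cast_nonneg w
      linarith)
    have hX1r : (1 : ℝ) ≤ X := by exact_mod_cast hX1
    push_cast
    calc 100 * (R : ℝ) * Real.log ((w : ℝ) + 1) ≤ 100 * (X : ℝ) ^ 14 * (3 * (1 + Real.log a)) := by
          apply mul_le_mul _ h1 hlw (by positivity)
          linarith
      _ = (X : ℝ) ^ 14 * (300 * (1 + Real.log a)) := by ring
      _ ≤ (X : ℝ) ^ 14 * X := by
          apply mul_le_mul_of_nonneg_left _ (by positivity)
          linarith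
      _ = (X : ℝ) ^ 15 := by ring
      _ ≤ (X : ℝ) ^ 57 := pow_le_pow_right₀ hX1r (by norm_num)
  · -- 100 K (Z+1) X1 ≤ a
    calc 100 * K * ((Z + 1) * X ^ 57) ≤ 100 * K * ((Z + Z) * X ^ 57) := by
          apply Nat.mul_le_mul_left
          apply Nat.mul_le_mul_right
          omega
      _ = (200 * K) * (Z * X ^ 57) := by ring
      _ ≤ X ^ 57 * (Z * X ^ 57) := by
          apply Nat.mul_le_mul_right
          omega
      _ = Z * X ^ 114 := by
          rw [mul_left_comm, ← pow_add]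
      _ ≤ a := hZa.le
  · -- 4 a ≤ b
    refine le_trans ?_ hb
    rw [mul_comm]
    apply Nat.mul_le_mul_left
    have : X ≤ X ^ 6000 := Nat.le_self_pow (by norm_num) X
    omega
  · -- 3 Z X1^8 ≤ b
    rw [← pow_mul]
    calc 3 * (Z * X ^ (57 * 8)) = Z * (3 * X ^ 456) := by ring
      _ ≤ a * X ^ 6000 := by
          apply Nat.mul_le_mul hZa'
          have h1 : 10 ^ 12 * X ^ 456 ≤ X ^ 457 := hXX 456
          have h2 : X ^ 457 ≤ X ^ 6000 := hpw (by norm_num)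
          omega
      _ ≤ b := hb

/-- many cells below row one -/
lemma light_B {a b X R : ℕ} {lam : Fin a → ℕ} (hlam : Antitone lam) (hsum : ∑ i, lam i = a * b)
    (hR3 : 3 ≤ R) (hRX : R ≤ X ^ 14)
    (ha : 1 ≤ a) (hXa : X ^ 20000 ≤ a) (hX : 10 ^ 12 * (1 + Real.log a) ^ 7 ≤ (X : ℝ))
    (hb2 : b ≤ a ^ 2) (hb : a * X ^ 6000 ≤ b) (hl2 : a * X ^ 5985 ≤ ex lam 2)
    (hl1 : a ^ 2 ≤ X ^ 243 * ex lam 1)
    (hD : X ^ 2550 * dn lam R ≤ ex lam 2) :
    plethMult a b a lam ≤ plethMult b a a lam := by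
  obtain ⟨hX12, hXL, hlog0⟩ := big_X ha hX
  have hX1 : 1 ≤ X := by omega
  have hpw : ∀ {i j : ℕ}, i ≤ j → X ^ i ≤ X ^ j := fun h => Nat.pow_le_pow_right hX1 h
  have hX57 : X ≤ X ^ 57 := Nat.le_self_pow (by norm_num) X
  have hX57r : (X : ℝ) ≤ ((X ^ 57 : ℕ) : ℝ) := by exact_mod_cast hX57
  have hpow : ((X ^ 57 : ℕ) : ℝ) ^ 44 = ((X ^ 2508 : ℕ) : ℝ) := by
    rw [← Nat.cast_pow, ← pow_mul]
  have haX : X ^ 2751 ≤ a := (hpw (by norm_num)).trans hXa
  have hbig : X ≤ a := le_trans (Nat.le_self_pow (by norm_num) X) haX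
  have hX12r : (10 : ℝ) ^ 12 ≤ X := by exact_mod_cast hX12
  refine H503.type_real (m := 3) (M := 44) (R := R) (X := ((X ^ 57 : ℕ) : ℝ)) H503.caseC_nat
    H503.caseR_nat (by omega) (by norm_num) (by norm_num) ?_ ?_ ?_ hb2 ?_ hlam hsum hR3 ?_ ?_ ?_ ?_
  · linarith
  · rw [hpow]
    exact_mod_cast (hpw (by norm_num : 2508 ≤ 20000)).trans hXa
  · linarith
  · rw [hpow]
    exact_mod_cast (Nat.mul_le_mul_left a (hpw (by norm_num : 2508 ≤ 6000))).trans hb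
  · exact_mod_cast hRX.trans (hpw (by norm_num))
  · rw [hpow, below_cells, ← dn_cells]
    exact_mod_cast (Nat.mul_le_mul_right _ (hpw (by norm_num : 2508 ≤ 2550))).trans hD
  · rw [hpow]
    exact_mod_cast (Nat.mul_le_mul_left a (hpw (by norm_num : 2508 ≤ 5985))).trans hl2
  · rw [hpow]
    have e1 : ∏ i ∈ Finset.Ico 1 3, min (ex lam i : ℝ) ((a : ℝ) ^ 2) =
        ((min (ex lam 1) (a ^ 2) * min (ex lam 2) (a ^ 2) : ℕ) : ℝ) := by
      rw [Finset.prod_Ico_succ_top (by norm_num), Finset.prod_Ico_succ_top (by norm_num),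
        Finset.Ico_self, Finset.prod_empty, one_mul]
      push_cast
      rfl
    rw [e1]
    have e2 : a ^ 2 ≤ X ^ 243 * min (ex lam 1) (a ^ 2) := by
      rcases le_total (ex lam 1) (a ^ 2) with h | h
      · rw [min_eq_left h]
        exact hl1
      · rw [min_eq_right h]
        exact Nat.le_mul_of_pos_left _ (pow_pos hX1 _)
    have e3 : a * X ^ 2751 ≤ min (ex lam 2) (a ^ 2) := by
      apply le_min
      · exact (Nat.mul_le_mul_left a (hpw (by norm_num))).trans hl2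
      · rw [sq]
        exact Nat.mul_le_mul_left a haX
    have e4 : X ^ 243 * (a ^ 3 * X ^ 2508) ≤
        X ^ 243 * (min (ex lam 1) (a ^ 2) * min (ex lam 2) (a ^ 2)) := by
      calc X ^ 243 * (a ^ 3 * X ^ 2508) = a ^ 2 * (a * X ^ 2751) := by
            rw [show 2751 = 243 + 2508 by norm_num, pow_add]
            ring
        _ ≤ (X ^ 243 * min (ex lam 1) (a ^ 2)) * min (ex lam 2) (a ^ 2) := Nat.mul_le_mul e2 e3
        _ = _ := mul_assoc _ _ _
    have e5 := Nat.le_of_mul_le_mul_left e4 (pow_pos hX1 _)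
    exact_mod_cast e5

/-- **(P9)** -/
theorem light : LightS := by
  rintro a b n X R lam ⟨hlam, hsum, hpos, hna, hb2, hb, hXa, hX, hb2', hlam1⟩ hR3 hRX hD
  have ha : 1 ≤ a := by
    by_contra hcon
    have h0 : a = 0 := by omega
    subst h0
    rw [Nat.cast_zero, Real.log_zero] at hX
    have h1 : (0 : ℝ) < X := lt_of_lt_of_le (by norm_num) hX
    have h2 : 0 < X := by exact_mod_cast h1
    have h3 : 0 < X ^ 20000 := pow_pos h2 _
    omega
  obtain ⟨hX12, hXL, hlog0⟩ := big_X ha hX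
  have hX1 : 1 ≤ X := by omega
  have hXX : ∀ i : ℕ, 10 ^ 12 * X ^ i ≤ X ^ (i + 1) := by
    intro i
    rw [pow_succ, mul_comm]
    exact Nat.mul_le_mul_left _ hX12
  have h14 : 1 ≤ X ^ 14 := Nat.one_le_pow _ _ hX1
  have hXX14 : 10 ^ 12 * X ^ 14 ≤ X ^ 15 := hXX 14
  have hDR : dn lam R ≤ ex lam 2 :=
    (Nat.le_mul_of_pos_left _ (pow_pos hX1 _)).trans hD
  have hd2 : dn lam 2 ≤ R * ex lam 2 := by
    obtain ⟨r, hr⟩ : ∃ r, R = 2 + r := ⟨R - 2, by omega⟩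
    have h1 := dn_le hlam 2 r
    rw [← hr] at h1
    calc dn lam 2 ≤ dn lam R + r * ex lam 2 := h1
      _ ≤ ex lam 2 + r * ex lam 2 := Nat.add_le_add_right hDR _
      _ = (1 + r) * ex lam 2 := by ring
      _ ≤ R * ex lam 2 := Nat.mul_le_mul_right _ (by omega)
  have hl2 : a * X ^ 5985 ≤ ex lam 2 := by
    have h1 : X ^ 15 * (a * X ^ 5985) ≤ X ^ 15 * ex lam 2 := by
      calc X ^ 15 * (a * X ^ 5985) = a * X ^ 6000 := by
            rw [mul_left_comm, ← pow_add]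
        _ ≤ b := hb
        _ ≤ 2 * dn lam 2 := hb2'
        _ ≤ 2 * (R * ex lam 2) := Nat.mul_le_mul_left _ hd2
        _ = (2 * R) * ex lam 2 := by ring
        _ ≤ X ^ 15 * ex lam 2 := Nat.mul_le_mul_right _ (by omega)
    exact Nat.le_of_mul_le_mul_left h1 (pow_pos hX1 _)
  rcases lt_or_ge (dn lam 1 * X ^ 228) (a ^ 2) with hw | hw
  · rcases lt_or_ge R n with hRn | hRn
    · exact light_A hlam hsum (Or.inl hpos) hR3 hRn hRX ha hXa hX hb2 hb hl2 hD hw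
    · obtain ⟨mu, hmu, hmus, hex, hdn, hple⟩ := pad_rows (a := R + 1) lam hlam (by omega)
      rw [← hple a b, ← hple b a]
      refine light_A hmu (hmus.trans hsum) (Or.inr ?_) hR3 (Nat.lt_succ_self R) hRX ha hXa hX hb2
        hb (by rw [hex]; exact hl2) (by rw [hex, hdn]; exact hD) (by rw [hdn]; exact hw)
      calc R + 1 ≤ X ^ 15 := by omega
        _ ≤ X ^ 57 := Nat.pow_le_pow_right hX1 (by norm_num)
  · obtain ⟨mu, hmu, hmus, hex, hdn, hple⟩ := pad_rows lam hlam hna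
    rw [← hple a b, ← hple b a]
    refine light_B hmu (hmus.trans hsum) hR3 hRX ha hXa hX hb2 hb (by rw [hex]; exact hl2) ?_
      (by rw [hex, hdn]; exact hD)
    rw [hex]
    have h1 : dn lam 1 ≤ X ^ 15 * ex lam 1 := by
      have h2 := dn_succ lam 1
      have h3 : ex lam 2 ≤ ex lam 1 := exanti hlam (by norm_num)
      calc dn lam 1 = ex lam 1 + dn lam 2 := h2
        _ ≤ ex lam 1 + R * ex lam 1 :=
          Nat.add_le_add_left (hd2.trans (Nat.mul_le_mul_left _ h3)) _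
        _ = (R + 1) * ex lam 1 := by ring
        _ ≤ X ^ 15 * ex lam 1 := Nat.mul_le_mul_right _ (by omega)
    calc a ^ 2 ≤ dn lam 1 * X ^ 228 := hw
      _ ≤ (X ^ 15 * ex lam 1) * X ^ 228 := Nat.mul_le_mul_right _ h1
      _ = X ^ 243 * ex lam 1 := by
          rw [mul_right_comm, ← pow_add]

end Vale.Agent.P181.PL9
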